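import Vale.Agent.P068.Z.Margin

/-!
Refining a colouring modulo small sets to a colouring modulo finite sets.
-/

namespace Vale.Agent.P068.Z

open Set

/-- A colouring of subsets modulo small sets. -/
structure Coarse {P : Type} (W : Win P) where
  st : Set P → SignType
  mono : ∀ X Y, W.AZ X Y → st X ≤ st Y
  anti : ∀ X Y, st X = 0 → st Y = 0 → W.AZ X Y → W.AZ Y X
  cross : ∀ A Z, st A = -1 → st Z = 1 → W.AZ A Z → ∃ B, st B = 0 ∧ W.AZ A B ∧ W.AZ B Z
  st_empty : st ∅ = -1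
  st_univ : st univ = 1

namespace Coarse

variable {P : Type} {W : Win P} (k : Coarse W)

/-- Two sets with small symmetric difference. -/
def Same (W : Win P) (R Y : Set P) : Prop := W.AZ R Y ∧ W.AZ Y R

/-- A representative of the class modulo small sets. -/
noncomputable def base (W : Win P) (Y : Set P) : Set P :=
  Classical.epsilon fun R => Same W R Y

theorem same_base (Y : Set P) : Same W (base W Y) Y :=
  Classical.epsilon_spec (p := fun R => Same W R Y) ⟨Y, Win.AZ.refl Y, Win.AZ.refl Y⟩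

theorem base_congr {X Y : Set P} (h₁ : W.AZ X Y) (h₂ : W.AZ Y X) : base W X = base W Y := by
  have : (fun R => Same W R X) = (fun R => Same W R Y) :=
    funext fun R => propext ⟨fun h => ⟨h.1.trans h₁, h₂.trans h.2⟩,
      fun h => ⟨h.1.trans h₂, h₁.trans h.2⟩⟩
  simp only [base, this]

/-- The margin of `Y` relative to `R`. -/
noncomputable def marg (W : Win P) (R : Set P) (r : ℕ) (Y : Set P) : ℤ :=
  (W.phi r (Y \ R) : ℤ) - (W.phi r (R \ Y) : ℤ)

theorem marg_le_add {R X Y T : Set P} (hX : Same W R X) (hY : Same W R Y) (hT : T.Finite)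
    (h : X \ Y ⊆ T) (r : ℕ) : marg W R r X ≤ marg W R r Y + 2 * (T.ncard : ℤ) := by
  have h1 := Win.Small.phi_le_add (J := X \ R) hY.2 hT (fun x hx => by
    by_cases hxY : x ∈ Y
    · exact Or.inl ⟨hxY, hx.2⟩
    · exact Or.inr (h ⟨hx.1, hxY⟩)) r
  have h2 := Win.Small.phi_le_add (J := R \ Y) hX.1 hT (fun x hx => by
    by_cases hxX : x ∈ X
    · exact Or.inr (h ⟨hxX, hx.2⟩)
    · exact Or.inl ⟨hx.1, hxX⟩) r
  unfold marg
  omega

theorem marg_mono {R X Y : Set P} (hX : Same W R X) (hY : Same W R Y) (h : X ⊆ Y) (r : ℕ) :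
    marg W R r X ≤ marg W R r Y := by
  have := marg_le_add hX hY Set.finite_empty (T := ∅)
    (by simp [Set.sdiff_eq_empty.2 h]) r
  simpa using this

theorem marg_gain {R X Y : Set P} (hX : Same W R X) (hY : Same W R Y) (h : X ⊆ Y) (r : ℕ) :
    marg W R r X + (W.pre r (Y \ X) : ℤ) ≤ marg W R r Y := by
  have h1 := Win.Small.phi_add_pre (J := X \ R) (T := (Y \ X) \ R) hY.2
    (by rw [Set.disjoint_left]; exact fun x hx hx' => hx'.1.2 hx.1)
    (by rintro x (hx | hx); exacts [⟨h hx.1, hx.2⟩, ⟨hx.1.1, hx.2⟩]) r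
  have h2 := Win.Small.phi_add_pre (J := R \ Y) (T := (Y \ X) ∩ R) hX.1
    (by rw [Set.disjoint_left]; exact fun x hx hx' => hx.2 hx'.1.1)
    (by rintro x (hx | hx); exacts [⟨hx.1, fun hh => hx.2 (h hh)⟩, ⟨hx.2, hx.1.2⟩]) r
  have h3 : W.pre r (Y \ X) = W.pre r ((Y \ X) \ R) + W.pre r ((Y \ X) ∩ R) := by
    simp only [Win.pre]
    rw [← Finset.sum_add_distrib]
    refine Finset.sum_congr rfl fun m _ => ?_
    rw [← W.cnt_disjoint Set.disjoint_sdiff_inter, Set.sdiff_union_inter]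
  unfold marg
  omega

/-- The margin is unbounded above. -/
def High (W : Win P) (R Y : Set P) : Prop :=
  ∀ C : ℤ, ∀ r₀ : ℕ, ∃ r, r₀ ≤ r ∧ C ≤ marg W R r Y

/-- The margin tends to minus infinity. -/
def Low (W : Win P) (R Y : Set P) : Prop :=
  ∀ C : ℤ, ∃ r₀ : ℕ, ∀ r, r₀ ≤ r → marg W R r Y ≤ C

theorem not_high_and_low {R Y : Set P} (h₁ : High W R Y) (h₂ : Low W R Y) : False := by
  obtain ⟨r₀, hr₀⟩ := h₂ 0
  obtain ⟨r, hr, hC⟩ := h₁ 1 r₀
  have := hr₀ r hr
  omega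

theorem High.mono {R X Y : Set P} (hX : Same W R X) (hY : Same W R Y) (h : AE X Y)
    (hh : High W R X) : High W R Y := fun C r₀ => by
  obtain ⟨r, hr, hC⟩ := hh (C + 2 * ((X \ Y).ncard : ℤ)) r₀
  have := marg_le_add hX hY h subset_rfl r
  exact ⟨r, hr, by omega⟩

theorem Low.mono {R X Y : Set P} (hX : Same W R X) (hY : Same W R Y) (h : AE X Y)
    (hh : Low W R Y) : Low W R X := fun C => by
  obtain ⟨r₀, hr₀⟩ := hh (C - 2 * ((X \ Y).ncard : ℤ))
  refine ⟨r₀, fun r hr => ?_⟩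
  have := marg_le_add hX hY h subset_rfl r
  have := hr₀ r hr
  omega

/-- Only finitely many points matter for one level. -/
theorem marg_finite_support {R A Z : Set P} (hA : Same W R A) (hZ : Same W R Z) (r : ℕ) :
    ∃ B, ∀ X Y : Set P, A ⊆ X → X ⊆ Z → A ⊆ Y → Y ⊆ Z →
      (∀ x, W.w x < B → (x ∈ X ↔ x ∈ Y)) → marg W R r X = marg W R r Y := by
  obtain ⟨B₁, hr₁, h₁⟩ := Win.Small.exists_bound hZ.2 r
  obtain ⟨B₂, -, h₂⟩ := Win.Small.exists_bound hA.1 r
  refine ⟨B₁ + B₂, fun X Y hAX hXZ hAY hYZ hXY => ?_⟩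
  have zero : ∀ {J J' : Set P}, J ⊆ J' → (∀ m, B₁ + B₂ ≤ m → W.term r m J' = 0) →
      ∀ m, B₁ + B₂ ≤ m → W.term r m J = 0 := fun hJ h m hm =>
    Nat.eq_zero_of_le_zero ((W.term_mono hJ r m).trans (h m hm).le)
  have z₁ : ∀ m, B₁ + B₂ ≤ m → W.term r m (Z \ R) = 0 := fun m hm => h₁ m (by omega)
  have z₂ : ∀ m, B₁ + B₂ ≤ m → W.term r m (R \ A) = 0 := fun m hm => h₂ m (by omega)
  have same : ∀ {J J' : Set P}, (∀ x, W.w x < B₁ + B₂ → (x ∈ J ↔ x ∈ J')) →
      ∀ m ∈ Finset.range (B₁ + B₂), W.term r m J = W.term r m J' := by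
    intro J J' h m hm
    have hc : W.cnt m J = W.cnt m J' := by
      unfold Win.cnt
      congr 1
      ext x
      simp only [Set.mem_ofPred_eq]
      constructor
      · rintro ⟨hx, rfl⟩; exact ⟨(h x (Finset.mem_range.1 hm)).1 hx, rfl⟩
      · rintro ⟨hx, rfl⟩; exact ⟨(h x (Finset.mem_range.1 hm)).2 hx, rfl⟩
    unfold Win.term
    rw [hc]
  unfold marg
  rw [W.phi_eq (zero (Set.sdiff_subset_sdiff_left hXZ) z₁),
    W.phi_eq (zero (Set.sdiff_subset_sdiff_left hYZ) z₁),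
    W.phi_eq (zero (Set.sdiff_subset_sdiff_right hAX) z₂),
    W.phi_eq (zero (Set.sdiff_subset_sdiff_right hAY) z₂),
    Finset.sum_congr rfl (same (J := X \ R) (J' := Y \ R)
      fun x hx => by simp [hXY x hx]),
    Finset.sum_congr rfl (same (J := R \ X) (J' := R \ Y)
      fun x hx => by simp [hXY x hx])]

/-- Between a low and a high set of one class there is a boundary set. -/
theorem exists_boundary {R A Z : Set P} (hA : Same W R A) (hZ : Same W R Z) (hAZ : A ⊆ Z)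
    (hlo : Low W R A) (hhi : High W R Z) :
    ∃ B, A ⊆ B ∧ B ⊆ Z ∧ ¬ High W R B ∧ ¬ Low W R B := by
  classical
  have same : ∀ {Y : Set P}, A ⊆ Y → Y ⊆ Z → Same W R Y := fun h₁ h₂ =>
    ⟨hA.1.trans (Win.AZ.of_subset h₁), (Win.AZ.of_subset h₂).trans hZ.2⟩
  choose K hK using fun r => marg_finite_support hA hZ r
  obtain ⟨r₀, hr₀⟩ := hlo 0
  let S : Set (Set P) := {Y | A ⊆ Y ∧ Y ⊆ Z ∧ ∀ r, r₀ ≤ r → marg W R r Y ≤ 0}
  have hAS : A ∈ S := ⟨subset_rfl, hAZ, hr₀⟩
  obtain ⟨B, hAB, hB⟩ := zorn_subset_nonempty S (fun c hc hchain hne => by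
    refine ⟨⋃₀ c, ⟨?_, Set.sUnion_subset fun s hs => (hc hs).2.1, fun r hr => ?_⟩,
      fun s hs => Set.subset_sUnion_of_mem hs⟩
    · obtain ⟨s, hs⟩ := hne
      exact (hc hs).1.trans (Set.subset_sUnion_of_mem hs)
    · have hfin : {x ∈ ⋃₀ c | W.w x < K r}.Finite :=
        (W.below_finite _).subset fun _ h => h.2
      obtain ⟨s, hs, hsub⟩ := DirectedOn.exists_mem_subset_of_finite_of_subset_sUnion
        hne hchain.directedOn hfin (fun _ h => h.1)
      rw [hK r (⋃₀ c) s ((hc hs).1.trans (Set.subset_sUnion_of_mem hs))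
        (Set.sUnion_subset fun s hs => (hc hs).2.1) (hc hs).1 (hc hs).2.1
        fun x hx => ⟨fun h => hsub ⟨h, hx⟩, fun h => ⟨s, hs, h⟩⟩]
      exact (hc hs).2.2 r hr) A hAS
  obtain ⟨hAB', hBZ, hB0⟩ := hB.prop
  refine ⟨B, hAB', hBZ, fun h => ?_, fun h => ?_⟩
  · obtain ⟨r, hr, hC⟩ := h 1 r₀
    have := hB0 r hr
    omega
  · obtain ⟨r₁, hr₁⟩ := h (-2)
    have hfin : (Z \ B).Finite := by
      refine (W.below_finite ((Finset.range r₁).sup K)).subset fun x hx => ?_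
      by_contra hw
      rw [Set.mem_ofPred_eq, not_lt] at hw
      have hsub : insert x B ⊆ Z := Set.insert_subset hx.1 hBZ
      have hins : A ⊆ insert x B := hAB'.trans (Set.subset_insert x B)
      refine hx.2 (hB.le_of_ge (y := insert x B) ⟨hins, hsub, fun r hr => ?_⟩
        (Set.subset_insert x B) (Set.mem_insert x B))
      by_cases hr' : r₁ ≤ r
      · have h1 := marg_le_add (same hins hsub) (same hAB' hBZ) (Set.finite_singleton x)
          (fun y hy => hy.1.resolve_right hy.2) r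
        rw [Set.ncard_singleton] at h1
        have := hr₁ r hr'
        push_cast at h1
        omega
      · have hKr : K r ≤ W.w x :=
          (Finset.le_sup (f := K) (Finset.mem_range.2 (Nat.lt_of_not_le hr'))).trans hw
        rw [hK r (insert x B) B hins hsub hAB' hBZ fun y hy => ⟨fun h => h.resolve_left
          (by rintro rfl; omega), fun h => Or.inr h⟩]
        exact hB0 r hr
    exact not_high_and_low hhi (h.mono hZ (same hAB' hBZ) hfin)

/-- Removing a small part makes a set low. -/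
theorem exists_low {R Y d : Set P} (hY : Same W R Y) (hdY : d ⊆ Y) (hd : ¬ W.Small d) :
    ∃ E ⊆ d, Same W R (Y \ E) ∧ Low W R (Y \ E) := by
  have hd' : ¬ W.Small (d ∩ R) := fun h => hd ((Win.Small.union h hY.2).mono fun x hx => by
    by_cases hR : x ∈ R
    · exact Or.inl ⟨hx, hR⟩
    · exact Or.inr ⟨hdY hx, hR⟩)
  obtain ⟨E, hE, hEs, hbig⟩ := exists_outweigh hY.2 hd'
  have hR' : W.Small (R \ (Y \ E)) := (Win.Small.union hY.1 hEs).mono fun x hx => by
    by_cases hxY : x ∈ Y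
    · exact Or.inr (by_contra fun h => hx.2 ⟨hxY, h⟩)
    · exact Or.inl ⟨hx.1, hxY⟩
  have hsame : Same W R (Y \ E) :=
    ⟨hR', (Win.AZ.of_subset Set.sdiff_subset).trans hY.2⟩
  refine ⟨E, hE.trans Set.inter_subset_left, hsame, fun C => ?_⟩
  obtain ⟨r₀, hr₀⟩ := hbig C.natAbs
  refine ⟨r₀, fun r hr => ?_⟩
  have h1 := Win.Small.phi_mono hY.2
    (Set.sdiff_subset_sdiff_left (t := R) (Set.sdiff_subset (s := Y) (t := E))) r
  have h2 := Win.Small.phi_mono hR'
    (J := E) (fun x hx => ⟨(hE hx).2, fun hh => hh.2 hx⟩) r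
  have h3 := hr₀ r hr
  unfold marg
  omega

/-- Adding a small part makes a set high. -/
theorem exists_high {R Y d : Set P} (hY : Same W R Y) (hdY : Disjoint d Y) (hd : ¬ W.Small d) :
    ∃ E ⊆ d, Same W R (Y ∪ E) ∧ High W R (Y ∪ E) := by
  have hd' : ¬ W.Small (d \ R) := fun h => hd ((Win.Small.union h hY.1).mono fun x hx => by
    by_cases hR : x ∈ R
    · exact Or.inr ⟨hR, Set.disjoint_left.1 hdY hx⟩
    · exact Or.inl ⟨hx, hR⟩)
  obtain ⟨E, hE, hEs, hbig⟩ := exists_outweigh hY.1 hd'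
  have hR' : W.Small ((Y ∪ E) \ R) := (Win.Small.union hY.2 hEs).mono fun x hx =>
    hx.1.imp (fun h => ⟨h, hx.2⟩) id
  have hsame : Same W R (Y ∪ E) :=
    ⟨hY.1.trans (Win.AZ.of_subset Set.subset_union_left), hR'⟩
  refine ⟨E, hE.trans Set.sdiff_subset, hsame, fun C r₀ => ?_⟩
  obtain ⟨r₁, hr₁⟩ := hbig C.natAbs
  refine ⟨r₀ + r₁, by omega, ?_⟩
  have h1 := Win.Small.phi_mono hY.1
    (Set.sdiff_subset_sdiff_right (s := R) (Set.subset_union_left (s := Y) (t := E))) (r₀ + r₁)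
  have h2 := Win.Small.phi_mono hR'
    (J := E) (fun x hx => ⟨Or.inr hx, (hE hx).2⟩) (r₀ + r₁)
  have h3 := hr₁ (r₀ + r₁) (by omega)
  unfold marg
  omega

open Classical in
/-- The refined colour. -/
noncomputable def fineSt (Y : Set P) : SignType :=
  if k.st Y ≠ 0 then k.st Y
  else if High W (base W Y) Y then 1 else if Low W (base W Y) Y then -1 else 0

theorem fineSt_of_ne {Y : Set P} (h : k.st Y ≠ 0) : k.fineSt Y = k.st Y := by
  simp [fineSt, h]

theorem fineSt_eq_one {Y : Set P} :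
    k.fineSt Y = 1 ↔ k.st Y = 1 ∨ (k.st Y = 0 ∧ High W (base W Y) Y) := by
  rcases Coloring.sign_cases (k.st Y) with h | h | h <;> by_cases hh : High W (base W Y) Y <;>
    by_cases hl : Low W (base W Y) Y <;> simp [fineSt, h, hh, hl]

theorem fineSt_eq_neg_one {Y : Set P} :
    k.fineSt Y = -1 ↔ k.st Y = -1 ∨ (k.st Y = 0 ∧ Low W (base W Y) Y) := by
  rcases Coloring.sign_cases (k.st Y) with h | h | h <;> by_cases hh : High W (base W Y) Y <;>
    by_cases hl : Low W (base W Y) Y <;> simp [fineSt, h, hh, hl]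
  exact (not_high_and_low hh hl).elim

theorem fineSt_eq_zero {Y : Set P} :
    k.fineSt Y = 0 ↔ k.st Y = 0 ∧ ¬ High W (base W Y) Y ∧ ¬ Low W (base W Y) Y := by
  rcases Coloring.sign_cases (k.st Y) with h | h | h <;> by_cases hh : High W (base W Y) Y <;>
    by_cases hl : Low W (base W Y) Y <;> simp [fineSt, h, hh, hl]

theorem same_class {X Y : Set P} (hX : k.st X = 0) (hY : k.st Y = 0) (h : W.AZ X Y) :
    Same W (base W Y) X ∧ base W X = base W Y := by
  have hb := base_congr h (k.anti X Y hX hY h)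
  exact ⟨hb ▸ same_base X, hb⟩

theorem fine_mono (X Y : Set P) (h : AE X Y) : k.fineSt X ≤ k.fineSt Y := by
  have hm := k.mono X Y (Win.AZ.of_ae h)
  rcases Coloring.sign_cases (k.fineSt X) with hX | hX | hX
  · rw [hX]; generalize k.fineSt Y = s; cases s <;> decide
  · obtain ⟨hX0, -, hXl⟩ := k.fineSt_eq_zero.1 hX
    rw [hX0] at hm
    rcases Coloring.sign_cases (k.fineSt Y) with hY | hY | hY
    · exfalso
      rcases k.fineSt_eq_neg_one.1 hY with h1 | ⟨h1, hYl⟩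
      · rw [h1] at hm; exact absurd hm (by decide)
      · obtain ⟨hs, hb⟩ := k.same_class hX0 h1 (Win.AZ.of_ae h)
        exact hXl (hb ▸ hYl.mono hs (same_base Y) h)
    · rw [hX, hY]
    · rw [hX, hY]; decide
  · rw [hX, k.fineSt_eq_one.2 ?_]
    rcases k.fineSt_eq_one.1 hX with h1 | ⟨h1, hXh⟩
    · rw [h1] at hm
      exact Or.inl (by revert hm; generalize k.st Y = s; cases s <;> decide)
    · rw [h1] at hm
      rcases Coloring.sign_cases (k.st Y) with h2 | h2 | h2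
      · rw [h2] at hm; exact absurd hm (by decide)
      · obtain ⟨hs, hb⟩ := k.same_class h1 h2 (Win.AZ.of_ae h)
        exact Or.inr ⟨h2, (hb ▸ hXh).mono hs (same_base Y) h⟩
      · exact Or.inl h2

theorem fine_anti (X Y : Set P) (hX : k.fineSt X = 0) (hY : k.fineSt Y = 0) (h : AE X Y) :
    AE Y X := by
  by_contra hinf
  obtain ⟨hX0, -, hXl⟩ := k.fineSt_eq_zero.1 hX
  obtain ⟨hY0, hYh, -⟩ := k.fineSt_eq_zero.1 hY
  obtain ⟨hs, hb⟩ := k.same_class hX0 hY0 (Win.AZ.of_ae h)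
  rw [hb] at hXl
  have hinf' : (Y \ (X ∩ Y)).Infinite := by
    rw [Set.sdiff_inter_self_eq_sdiff]
    exact hinf
  have hs' : Same W (base W Y) (X ∩ Y) := by
    refine ⟨hs.1.trans (Win.AZ.of_ae ?_), (Win.AZ.of_subset Set.inter_subset_left).trans hs.2⟩
    exact h.subset fun x hx => ⟨hx.1, fun hY => hx.2 ⟨hx.1, hY⟩⟩
  refine hYh fun C r₀ => ?_
  simp only [Low, not_forall, not_exists, not_le] at hXl
  obtain ⟨C₀, hC₀⟩ := hXl
  obtain ⟨r₁, hr₁⟩ := W.pre_tendsto hinf' (C - C₀ + 2 * ((X \ Y).ncard : ℤ)).natAbs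
  obtain ⟨r, hr, hC⟩ := hC₀ (r₀ + r₁)
  have h1 := marg_le_add hs hs' h
    (fun x hx => (⟨hx.1, fun hY => hx.2 ⟨hx.1, hY⟩⟩ : x ∈ X \ Y)) r
  have h2 := marg_gain hs' (same_base Y) Set.inter_subset_right r
  have h3 := hr₁ r (by omega)
  exact ⟨r, by omega, by omega⟩

theorem fine_cross (A Z : Set P) (hA : k.fineSt A = -1) (hZ : k.fineSt Z = 1) (h : AE A Z) :
    ∃ B, k.fineSt B = 0 ∧ AE A B ∧ AE B Z := by
  set A' := A ∩ Z with hA'
  have hA'Z : A' ⊆ Z := Set.inter_subset_right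
  have hAA' : AE A A' := h.subset fun x hx => ⟨hx.1, fun hz => hx.2 ⟨hx.1, hz⟩⟩
  have hA1 : k.fineSt A' = -1 := by
    have := k.fine_mono A' A (AE.of_subset Set.inter_subset_left)
    rw [hA] at this
    revert this; generalize k.fineSt A' = s; cases s <;> decide
  clear_value A'
  suffices H : ∃ R A₀ Z₀, A' ⊆ A₀ ∧ A₀ ⊆ Z₀ ∧ Z₀ ⊆ Z ∧ k.st A₀ = 0 ∧ k.st Z₀ = 0 ∧
      R = base W Z₀ ∧ Low W R A₀ ∧ High W R Z₀ by
    obtain ⟨R, A₀, Z₀, h1, h2, h3, hA0, hZ0, rfl, hl, hh⟩ := H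
    obtain ⟨hs, -⟩ := k.same_class hA0 hZ0 (Win.AZ.of_subset h2)
    obtain ⟨B, hAB, hBZ, hnh, hnl⟩ := exists_boundary hs (same_base Z₀) h2 hl hh
    have hB0 : k.st B = 0 := le_antisymm
      (hZ0 ▸ k.mono B Z₀ (Win.AZ.of_subset hBZ)) (hA0 ▸ k.mono A₀ B (Win.AZ.of_subset hAB))
    obtain ⟨-, hb⟩ := k.same_class hB0 hZ0 (Win.AZ.of_subset hBZ)
    refine ⟨B, k.fineSt_eq_zero.2 ⟨hB0, ?_, ?_⟩, hAA'.trans (AE.of_subset (h1.trans hAB)),
      AE.of_subset (hBZ.trans h3)⟩ <;> rwa [hb]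
  rcases k.fineSt_eq_neg_one.1 hA1 with hAm | ⟨hA0, hAl⟩
  · obtain ⟨M, hM0, hAM, hMZ⟩ : ∃ M, k.st M = 0 ∧ A' ⊆ M ∧ M ⊆ Z := by
      rcases k.fineSt_eq_one.1 hZ with hZp | ⟨hZ0, -⟩
      · obtain ⟨B, hB, hAB, hBZ⟩ := k.cross A' Z hAm hZp (Win.AZ.of_subset hA'Z)
        refine ⟨(B ∪ A') ∩ Z, le_antisymm (hB ▸ k.mono _ _ ?_) (hB ▸ k.mono _ _ ?_),
          fun x hx => ⟨Or.inr hx, hA'Z hx⟩, Set.inter_subset_right⟩
        · exact Win.Small.mono hAB fun x hx => ⟨hx.1.1.resolve_left hx.2, hx.2⟩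
        · exact Win.Small.mono hBZ fun x hx => ⟨hx.1, fun hz => hx.2 ⟨Or.inl hx.1, hz⟩⟩
      · exact ⟨Z, hZ0, hA'Z, subset_rfl⟩
    have hd : ¬ W.Small (M \ A') := fun hs => by
      have := k.mono M A' hs
      rw [hM0, hAm] at this
      exact absurd this (by decide)
    obtain ⟨E, hE, hsame, hlow⟩ := exists_low (same_base M) Set.sdiff_subset hd
    have hA₀ : k.st (M \ E) = 0 := le_antisymm
      (hM0 ▸ k.mono _ _ (Win.AZ.of_subset Set.sdiff_subset))
      (hM0 ▸ k.mono _ _ ((same_base M).2.trans hsame.1))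
    have hAE' : A' ⊆ M \ E := fun x hx => ⟨hAM hx, fun he => (hE he).2 hx⟩
    rcases k.fineSt_eq_one.1 hZ with hZp | ⟨hZ0, hZh⟩
    · have hd' : ¬ W.Small (Z \ M) := fun hs => by
        have := k.mono Z M hs
        rw [hM0, hZp] at this
        exact absurd this (by decide)
      obtain ⟨E', hE', hsame', hhigh⟩ := exists_high (same_base M)
        (Set.disjoint_left.2 fun x hx hx' => hx.2 hx') hd'
      have hZ₀ : k.st (M ∪ E') = 0 := le_antisymm
        (hM0 ▸ k.mono _ _ (hsame'.2.trans (same_base M).1))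
        (hM0 ▸ k.mono _ _ (Win.AZ.of_subset Set.subset_union_left))
      obtain ⟨-, hb⟩ := k.same_class hM0 hZ₀ (Win.AZ.of_subset Set.subset_union_left)
      exact ⟨base W M, M \ E, M ∪ E', hAE', Set.sdiff_subset.trans Set.subset_union_left,
        Set.union_subset hMZ (hE'.trans Set.sdiff_subset), hA₀, hZ₀, hb, hlow, hhigh⟩
    · obtain ⟨-, hb⟩ := k.same_class hM0 hZ0 (Win.AZ.of_subset hMZ)
      exact ⟨base W M, M \ E, Z, hAE', Set.sdiff_subset.trans hMZ, subset_rfl, hA₀, hZ0, hb,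
        hlow, hb ▸ hZh⟩
  · rcases k.fineSt_eq_one.1 hZ with hZp | ⟨hZ0, hZh⟩
    · have hd' : ¬ W.Small (Z \ A') := fun hs => by
        have := k.mono Z A' hs
        rw [hA0, hZp] at this
        exact absurd this (by decide)
      obtain ⟨E', hE', hsame', hhigh⟩ := exists_high (same_base A')
        (Set.disjoint_left.2 fun x hx hx' => hx.2 hx') hd'
      have hZ₀ : k.st (A' ∪ E') = 0 := le_antisymm
        (hA0 ▸ k.mono _ _ (hsame'.2.trans (same_base A').1))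
        (hA0 ▸ k.mono _ _ (Win.AZ.of_subset Set.subset_union_left))
      obtain ⟨-, hb⟩ := k.same_class hA0 hZ₀ (Win.AZ.of_subset Set.subset_union_left)
      exact ⟨base W A', A', A' ∪ E', subset_rfl, Set.subset_union_left,
        Set.union_subset hA'Z (hE'.trans Set.sdiff_subset), hA0, hZ₀, hb, hAl, hhigh⟩
    · obtain ⟨-, hb⟩ := k.same_class hA0 hZ0 (Win.AZ.of_subset hA'Z)
      exact ⟨base W A', A', Z, subset_rfl, hA'Z, subset_rfl, hA0, hZ0, hb, hAl, hb ▸ hZh⟩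

/-- The refined colouring modulo finite sets. -/
noncomputable def refine' : Coloring P where
  st := k.fineSt
  mono := k.fine_mono
  anti := k.fine_anti
  cross := k.fine_cross
  st_empty := by rw [k.fineSt_of_ne (by rw [k.st_empty]; decide), k.st_empty]
  st_univ := by rw [k.fineSt_of_ne (by rw [k.st_univ]; decide), k.st_univ]

end Coarse

end Vale.Agent.P068.Z
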