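import Vale.Agent.P068.Build
import Vale.Agent.P068.Z.Step
import Vale.Agent.P068.Z.Fine

/-!
The transfinite construction of a total labelling and colouring.
-/

namespace Vale.Agent.P068.Z

open Set Cardinal

/-- The index type of the recursion. -/
abbrev Idx : Type := Cardinal.continuum.ord.ToType

/-- The starting state. -/
noncomputable def start : State :=
  ⟨{((∅ : Set ℕ), labBot), ((univ : Set ℕ), labTop)}, ∅⟩

theorem good_start : Good start := by
  refine ⟨Or.inl rfl, Or.inr rfl, ?_, ?_, ?_, ?_⟩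
  · rintro p (rfl | rfl) q (rfl | rfl) hpq
    · exact le_rfl
    · exact labBot_le _
    · exact absurd hpq (fun h => not_small_univ (Win.Small.mono h (by simp)))
    · exact le_rfl
  all_goals intro p hp; exact hp.elim

theorem mk_port_pairs : #(Set Port × Set Port) = Cardinal.continuum := by
  have h : #(Set Port) = Cardinal.continuum := by
    rw [Cardinal.mk_set, Cardinal.mk_eq_aleph0 Port, Cardinal.two_power_aleph0]
  rw [Cardinal.mk_prod, Cardinal.lift_id, h, Cardinal.continuum_mul_self]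

/-- The enumeration of tasks. -/
noncomputable def task : Idx ≃ Set Port × Set Port :=
  (Cardinal.eq.1 ((Cardinal.mk_toType _).trans
    ((Cardinal.card_ord _).trans mk_port_pairs.symm))).some

/-- The state before step `i`, given the earlier ones. -/
def prior (i : Idx) (ih : ∀ j, j < i → State) : State :=
  ⟨start.lab ∪ ⋃ (j : Idx) (h : j < i), (ih j h).lab,
    start.col ∪ ⋃ (j : Idx) (h : j < i), (ih j h).col⟩

open Classical in
/-- One step: an extension doing the task of `i`, when there is one. -/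
noncomputable def next (i : Idx) (ih : ∀ j, j < i → State) : State :=
  if h : ∃ T, Ext (prior i ih) T ∧ Done T (task i).1 (task i).2 then h.choose else prior i ih

/-- The sequence of states. -/
noncomputable def stage : Idx → State :=
  (wellFounded_lt (α := Idx)).fix next

theorem stage_eq (i : Idx) : stage i = next i fun j _ => stage j :=
  WellFounded.fix_eq _ _ i

/-- The union before step `i`. -/
noncomputable def before (i : Idx) : State := prior i fun j _ => stage j

theorem mem_before_lab {i : Idx} {p : Set ℕ × Lab} :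
    p ∈ (before i).lab ↔ p ∈ start.lab ∨ ∃ j < i, p ∈ (stage j).lab := by
  simp [before, prior]

theorem mem_before_col {i : Idx} {p : Set Port × SignType} :
    p ∈ (before i).col ↔ ∃ j < i, p ∈ (stage j).col := by
  simp [before, prior, start]

theorem start_le_before (i : Idx) : start.lab ⊆ (before i).lab :=
  fun _ hp => mem_before_lab.2 (Or.inl hp)

theorem good_before {i : Idx} (hg : ∀ j < i, Good (stage j))
    (hm : ∀ j < i, ∀ k < j, (stage k).Le (stage j)) : Good (before i) := by
  have le2 : ∀ j < i, ∀ k < i, ∃ l < i, (stage j).Le (stage l) ∧ (stage k).Le (stage l) := by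
    intro j hj k hk
    rcases lt_trichotomy j k with h | rfl | h
    · exact ⟨k, hk, hm k hk j h, ⟨subset_rfl, subset_rfl⟩⟩
    · exact ⟨j, hj, ⟨subset_rfl, subset_rfl⟩, ⟨subset_rfl, subset_rfl⟩⟩
    · exact ⟨j, hj, ⟨subset_rfl, subset_rfl⟩, hm j hj k h⟩
  have col2 : ∀ p ∈ (before i).col, ∀ q ∈ (before i).col,
      ∃ l < i, p ∈ (stage l).col ∧ q ∈ (stage l).col := by
    intro p hp q hq
    obtain ⟨j, hj, hp⟩ := mem_before_col.1 hp
    obtain ⟨k, hk, hq⟩ := mem_before_col.1 hq
    obtain ⟨l, hl, h1, h2⟩ := le2 j hj k hk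
    exact ⟨l, hl, h1.2 hp, h2.2 hq⟩
  have sub : ∀ p ∈ start.lab, ∀ j < i, p ∈ (stage j).lab := by
    rintro p (rfl | rfl) j hj
    · exact (hg j hj).bot_mem
    · exact (hg j hj).top_mem
  refine ⟨start_le_before i (Or.inl rfl), start_le_before i (Or.inr rfl), ?_, ?_, ?_, ?_⟩
  · intro p hp q hq hpq
    rcases mem_before_lab.1 hp with hp | ⟨j, hj, hp⟩ <;>
      rcases mem_before_lab.1 hq with hq | ⟨k, hk, hq⟩
    · exact good_start.lab_mono p hp q hq hpq
    · exact (hg k hk).lab_mono p (sub p hp k hk) q hq hpq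
    · exact (hg j hj).lab_mono p hp q (sub q hq j hj) hpq
    · obtain ⟨l, hl, h1, h2⟩ := le2 j hj k hk
      exact (hg l hl).lab_mono p (h1.1 hp) q (h2.1 hq) hpq
  · intro p hp q hq
    obtain ⟨l, hl, h1, h2⟩ := col2 p hp q hq
    exact (hg l hl).col_mono p h1 q h2
  · intro p hp q hq
    obtain ⟨l, hl, h1, h2⟩ := col2 p hp q hq
    exact (hg l hl).col_anti p h1 q h2
  · intro p hp
    obtain ⟨j, hj, hp⟩ := mem_before_col.1 hp
    obtain ⟨a, b, ha, hb, h1, h2⟩ := (hg j hj).col_lab p hp
    exact ⟨a, b, mem_before_lab.2 (Or.inr ⟨j, hj, ha⟩),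
      mem_before_lab.2 (Or.inr ⟨j, hj, hb⟩), h1, h2⟩

theorem stage_spec (i : Idx) :
    Good (stage i) ∧ (∀ j < i, (stage j).Le (stage i)) ∧ Done (stage i) (task i).1 (task i).2 ∧
      ∃ G : Idx → Finset (Set ℕ), (stage i).dom ⊆ start.dom ∪ ⋃ j ∈ Set.Iic i, ↑(G j) := by
  suffices H : ∀ i, Good (stage i) ∧ (∀ j < i, (stage j).Le (stage i)) ∧
      Done (stage i) (task i).1 (task i).2 ∧
      ∃ G : Finset (Set ℕ), (stage i).dom ⊆ (before i).dom ∪ ↑G by
    have H4 := fun j => (H j).2.2.2
    choose G hG using H4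
    refine ⟨(H i).1, (H i).2.1, (H i).2.2.1, G, ?_⟩
    induction i using (wellFounded_lt (α := Idx)).induction with
    | h i ih =>
      refine (hG i).trans (Set.union_subset ?_ ?_)
      · rintro _ ⟨p, hp, rfl⟩
        rcases mem_before_lab.1 hp with hp | ⟨j, hj, hp⟩
        · exact Or.inl ⟨p, hp, rfl⟩
        · rcases ih j hj ⟨p, hp, rfl⟩ with h | h
          · exact Or.inl h
          · simp only [Set.mem_iUnion, Set.mem_Iic] at h
            obtain ⟨k, hk, hk'⟩ := h
            exact Or.inr (Set.mem_biUnion (Set.mem_Iic.2 (hk.trans hj.le)) hk')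
      · exact fun x hx => Or.inr (Set.mem_biUnion (Set.mem_Iic.2 le_rfl) hx)
  intro i
  induction i using (wellFounded_lt (α := Idx)).induction with
  | h i ih =>
    have hg := good_before (i := i) (fun j hj => (ih j hj).1) (fun j hj => (ih j hj).2.1)
    have hsmall : #(before i).dom < Cardinal.continuum := by
      have ih4 := fun j (hj : j < i) => (ih j hj).2.2.2
      choose G hG using ih4
      let G' : ↥(Set.Iio i) → Finset (Set ℕ) := fun j => G j.1 j.2
      have hsub : ∀ j, j < i → (stage j).dom ⊆ start.dom ∪ ⋃ k, ↑(G' k) := by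
        intro j
        induction j using (wellFounded_lt (α := Idx)).induction with
        | h j ihj =>
          intro hj
          refine (hG j hj).trans (Set.union_subset ?_ ?_)
          · rintro _ ⟨p, hp, rfl⟩
            rcases mem_before_lab.1 hp with hp | ⟨k, hk, hp⟩
            · exact Or.inl ⟨p, hp, rfl⟩
            · exact ihj k hk (hk.trans hj) ⟨p, hp, rfl⟩
          · exact fun x hx => Or.inr (Set.mem_iUnion.2 ⟨⟨j, hj⟩, hx⟩)
      have hdom : (before i).dom ⊆ start.dom ∪ ⋃ k, ↑(G' k) := by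
        rintro _ ⟨p, hp, rfl⟩
        rcases mem_before_lab.1 hp with hp | ⟨j, hj, hp⟩
        · exact Or.inl ⟨p, hp, rfl⟩
        · exact hsub j hj ⟨p, hp, rfl⟩
      refine ((Cardinal.mk_le_mk_of_subset hdom).trans (Cardinal.mk_union_le _ _)).trans_lt ?_
      refine Cardinal.add_lt_of_lt Cardinal.aleph0_le_continuum ?_ ?_
      · exact (((Set.finite_singleton _).insert _).image _).lt_aleph0.trans_le
          Cardinal.aleph0_le_continuum
      · refine ((Cardinal.mk_iUnion_le _).trans
          (mul_le_mul' le_rfl (ciSup_le' fun k => (G' k).finite_toSet.lt_aleph0.le))).trans_lt ?_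
        exact Cardinal.mul_lt_of_lt Cardinal.aleph0_le_continuum
          (Cardinal.mk_Iio_ord_toType i) Cardinal.aleph0_lt_continuum
    have hex : ∃ T, Ext (prior i fun j _ => stage j) T ∧ Done T (task i).1 (task i).2 :=
      exists_step hg hsmall _ _
    have he : stage i = hex.choose := by
      rw [stage_eq, next, dif_pos hex]
    obtain ⟨⟨hgood, hle, G, hG⟩, hdone⟩ := hex.choose_spec
    rw [← he] at hgood hle hG hdone
    exact ⟨hgood, fun j hj => ⟨fun p hp => hle.1 (mem_before_lab.2 (Or.inr ⟨j, hj, hp⟩)),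
      fun p hp => hle.2 (mem_before_col.2 ⟨j, hj, hp⟩)⟩, hdone, G, hG⟩

theorem exists_data : Nonempty Data := by
  classical
  have two : ∀ j k : Idx, ∃ l, (stage j).Le (stage l) ∧ (stage k).Le (stage l) := by
    intro j k
    rcases lt_trichotomy j k with h | rfl | h
    · exact ⟨k, (stage_spec k).2.1 j h, ⟨subset_rfl, subset_rfl⟩⟩
    · exact ⟨j, ⟨subset_rfl, subset_rfl⟩, ⟨subset_rfl, subset_rfl⟩⟩
    · exact ⟨j, ⟨subset_rfl, subset_rfl⟩, (stage_spec j).2.1 k h⟩
  have good : ∀ l, Good (stage l) := fun l => (stage_spec l).1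
  have colEx : ∀ Y : Set Port, ∃ s i, (Y, s) ∈ (stage i).col := by
    intro Y
    obtain ⟨i, hi⟩ := task.surjective (Y, Y)
    obtain ⟨s, t, hs, -, -⟩ := (stage_spec i).2.2.1
    exact ⟨s, i, by rw [hi] at hs; exact hs⟩
  choose st ci hst using colEx
  have labEx : ∀ X : Set ℕ, ∃ a i, (X, a) ∈ (stage i).lab := by
    intro X
    have hY : inn ((fun k => (false, k)) '' X) = X := by ext k; simp [inn]
    obtain ⟨a, b, ha, -, -, -⟩ :=
      (good _).col_lab _ (hst ((fun k => (false, k)) '' X))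
    exact ⟨a, _, by rw [hY] at ha; exact ha⟩
  choose phi li hphi using labEx
  have lab_mono : ∀ {X Y a b j k}, (X, a) ∈ (stage j).lab → (Y, b) ∈ (stage k).lab →
      AE X Y → a ≤ b := by
    intro X Y a b j k ha hb h
    obtain ⟨l, h1, h2⟩ := two j k
    exact (good l).lab_mono _ (h1.1 ha) _ (h2.1 hb) h
  have lab_eq : ∀ {X a j}, (X, a) ∈ (stage j).lab → phi X = a := fun ha =>
    le_antisymm (lab_mono (hphi _) ha (AE.refl _)) (lab_mono ha (hphi _) (AE.refl _))
  have col_mono : ∀ {X Y s t j k}, (X, s) ∈ (stage j).col → (Y, t) ∈ (stage k).col →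
      AE X Y → s ≤ t := by
    intro X Y s t j k ha hb h
    obtain ⟨l, h1, h2⟩ := two j k
    exact (good l).col_mono _ (h1.2 ha) _ (h2.2 hb) h
  have col_eq : ∀ {Y s j}, (Y, s) ∈ (stage j).col → st Y = s := fun hs =>
    le_antisymm (col_mono (hst _) hs (AE.refl _)) (col_mono hs (hst _) (AE.refl _))
  have hlow : ∀ Y, FLow (phi (inn Y)) (phi (out Y)ᶜ) → st Y = -1 := by
    intro Y hY
    obtain ⟨a, b, ha, hb, h1, -⟩ := (good _).col_lab _ (hst Y)
    rw [lab_eq ha, lab_eq hb] at hY
    exact h1 hY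
  have hhigh : ∀ Y, FHigh (phi (inn Y)) (phi (out Y)ᶜ) → st Y = 1 := by
    intro Y hY
    obtain ⟨a, b, ha, hb, -, h2⟩ := (good _).col_lab _ (hst Y)
    rw [lab_eq ha, lab_eq hb] at hY
    exact h2 hY
  have hbot : phi ∅ = labBot := lab_eq (good (li ∅)).bot_mem
  have htop : phi univ = labTop := lab_eq (good (li ∅)).top_mem
  suffices H : ∃ k : Coarse portWin, k.st = st by
    obtain ⟨k, hk⟩ := H
    refine ⟨⟨phi, k.refine', fun X Y h => lab_mono (hphi X) (hphi Y) (AE.of_subset h),
      hbot, htop, fun Y hY => ?_, fun Y hY => ?_⟩⟩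
    · exact k.fineSt_eq_neg_one.2 (Or.inl (by rw [hk]; exact hlow Y hY))
    · exact k.fineSt_eq_one.2 (Or.inl (by rw [hk]; exact hhigh Y hY))
  refine ⟨⟨st, fun X Y h => col_mono (hst X) (hst Y) h, ?_, ?_, ?_, ?_⟩, rfl⟩
  · intro X Y hX hY h
    obtain ⟨l, h1, h2⟩ := two (ci X) (ci Y)
    exact (good l).col_anti _ (h1.2 (hst X)) _ (h2.2 (hst Y)) hX hY h
  · intro A Z hA hZ hAZ
    obtain ⟨i, hi⟩ := task.surjective (A, Z)
    obtain ⟨s, t, hs, ht, hB⟩ := (stage_spec i).2.2.1
    rw [hi] at hs ht hB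
    obtain ⟨B, hB0, h1, h2⟩ := hB ((col_eq hs).symm.trans hA) ((col_eq ht).symm.trans hZ) hAZ
    exact ⟨B, col_eq hB0, h1, h2⟩
  · refine hlow ∅ ⟨⟨0, ?_⟩, ?_⟩
    · simpa [inn, labBot] using hbot
    · rw [show inn (∅ : Set Port) = ∅ from rfl, hbot]; exact labBot_le _
  · refine hhigh Set.univ ⟨⟨0, ?_⟩, ?_⟩
    · simpa [inn, labTop] using htop
    · rw [show inn (Set.univ : Set Port) = Set.univ from rfl, htop]; exact le_labTop _

end Vale.Agent.P068.Z
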