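import Vale.Agent.P068.Z.Window

/-!
The capped count of a small set and the sets of small size that outweigh it.
-/

namespace Vale.Agent.P068.Z

open Set

variable {P : Type} (W : Win P)

/-- The term of window `m` at level `r`: everything up to `r`, the excess above
`siz m / (r + 1)` beyond. -/
noncomputable def Win.term (r m : ℕ) (J : Set P) : ℕ :=
  if m ≤ r then W.cnt m J else W.cnt m J - siz m / (r + 1)

/-- The capped count of `J` at level `r`. -/
noncomputable def Win.phi (r : ℕ) (J : Set P) : ℕ := ∑ᶠ m, W.term r m J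

/-- The number of points of `T` in the windows up to `r`. -/
noncomputable def Win.pre (r : ℕ) (T : Set P) : ℕ := ∑ m ∈ Finset.range (r + 1), W.cnt m T

variable {W}

theorem Win.Small.exists_bound {J : Set P} (h : W.Small J) (r : ℕ) :
    ∃ B, r < B ∧ ∀ m, B ≤ m → W.term r m J = 0 := by
  obtain ⟨M, hM⟩ := h r
  refine ⟨M + r + 1, by omega, fun m hm => ?_⟩
  rw [Win.term, if_neg (by omega), Nat.sub_eq_zero_iff_le, Nat.le_div_iff_mul_le (by omega)]
  rw [mul_comm]
  exact hM m (by omega)

theorem Win.phi_eq {J : Set P} {r B : ℕ} (h : ∀ m, B ≤ m → W.term r m J = 0) :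
    W.phi r J = ∑ m ∈ Finset.range B, W.term r m J := by
  refine finsum_eq_sum_of_support_subset _ fun m hm => ?_
  rw [Finset.coe_range, Set.mem_Iio]
  by_contra hc
  exact hm (h m (by omega))

theorem Win.term_mono {J J' : Set P} (h : J ⊆ J') (r m : ℕ) :
    W.term r m J ≤ W.term r m J' := by
  have := W.cnt_mono h m
  unfold Win.term
  split <;> omega

theorem Win.Small.term_le_phi {J : Set P} (h : W.Small J) (r m : ℕ) :
    W.term r m J ≤ W.phi r J := by
  refine single_le_finsum (f := fun k => W.term r k J) m ?_ fun _ => Nat.zero_le _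
  obtain ⟨B, -, hB⟩ := h.exists_bound r
  refine (Set.finite_Iio B).subset fun k hk => ?_
  by_contra hc
  exact hk (hB k (by simpa using hc))

theorem Win.Small.phi_mono {J' : Set P} (h : W.Small J') {J : Set P} (hJ : J ⊆ J') (r : ℕ) :
    W.phi r J ≤ W.phi r J' := by
  obtain ⟨B, -, hB⟩ := h.exists_bound r
  rw [W.phi_eq hB, W.phi_eq fun m hm =>
    Nat.eq_zero_of_le_zero ((W.term_mono hJ r m).trans (hB m hm).le)]
  exact Finset.sum_le_sum fun m _ => W.term_mono hJ r m

theorem Win.sum_cnt_le {T : Set P} (hT : T.Finite) (B : ℕ) :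
    ∑ m ∈ Finset.range B, W.cnt m T ≤ T.ncard := by
  classical
  rw [Set.ncard_eq_toFinset_card T hT]
  have h : ∀ m, W.cnt m T = (hT.toFinset.filter fun x => W.w x = m).card := fun m => by
    rw [Win.cnt, ← Set.ncard_coe_finset]
    congr 1
    ext x
    simp
  simp only [h]
  rw [← Finset.card_biUnion]
  · exact Finset.card_le_card fun x hx => by
      simp only [Finset.mem_biUnion, Finset.mem_filter] at hx
      obtain ⟨-, -, h, -⟩ := hx
      exact h
  · intro a _ b _ hab
    simp only [Finset.disjoint_left, Finset.mem_filter]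
    exact fun x h1 h2 => hab (h1.2.symm.trans h2.2)

/-- Adding a finite set adds at most its size. -/
theorem Win.Small.phi_le_add {J' : Set P} (h : W.Small J') {J T : Set P} (hT : T.Finite)
    (hJ : J ⊆ J' ∪ T) (r : ℕ) : W.phi r J ≤ W.phi r J' + T.ncard := by
  obtain ⟨B₁, -, h₁⟩ := h.exists_bound r
  obtain ⟨M, hM⟩ := W.cnt_eventually_zero hT
  have step : ∀ m, W.term r m J ≤ W.term r m J' + W.cnt m T := fun m => by
    have := (W.cnt_mono hJ m).trans (W.cnt_union m J' T)
    unfold Win.term
    split <;> omega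
  have hJz : ∀ m, B₁ + M ≤ m → W.term r m J = 0 := fun m hm => by
    have := step m
    rw [h₁ m (by omega), hM m (by omega)] at this
    omega
  rw [W.phi_eq hJz, W.phi_eq (B := B₁ + M) fun m hm => h₁ m (by omega)]
  refine (Finset.sum_le_sum fun m _ => step m).trans ?_
  rw [Finset.sum_add_distrib]
  exact Nat.add_le_add_left (W.sum_cnt_le hT _) _

/-- A new part is fully counted up to the level. -/
theorem Win.Small.phi_add_pre {J' : Set P} (h : W.Small J') {J T : Set P} (hd : Disjoint J T)
    (hJ : J ∪ T ⊆ J') (r : ℕ) : W.phi r J + W.pre r T ≤ W.phi r J' := by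
  obtain ⟨B, hrB, hB⟩ := h.exists_bound r
  have hJJ' : J ⊆ J' := Set.subset_union_left.trans hJ
  have e : W.pre r T = ∑ m ∈ Finset.range B, if m ≤ r then W.cnt m T else 0 := by
    rw [Win.pre, ← Finset.sum_filter]
    refine Finset.sum_congr ?_ fun _ _ => rfl
    ext m
    simp only [Finset.mem_range, Finset.mem_filter]
    omega
  rw [W.phi_eq hB, W.phi_eq fun m hm =>
    Nat.eq_zero_of_le_zero ((W.term_mono hJJ' r m).trans (hB m hm).le), e,
    ← Finset.sum_add_distrib]
  refine Finset.sum_le_sum fun m _ => ?_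
  by_cases hm : m ≤ r
  · simp only [Win.term, if_pos hm]
    rw [← W.cnt_disjoint hd m]
    exact W.cnt_mono hJ m
  · simp only [if_neg hm, add_zero]
    exact W.term_mono hJJ' r m

/-- An infinite set has unboundedly many points in the first windows. -/
theorem Win.pre_tendsto {T : Set P} (hT : T.Infinite) (C : ℕ) :
    ∃ r₀, ∀ r, r₀ ≤ r → C ≤ W.pre r T := by
  classical
  obtain ⟨t, ht, htC⟩ := hT.exists_subset_card_eq C
  refine ⟨t.sup W.w, fun r hr => ?_⟩
  have h : ∀ m, (t.filter fun x => W.w x = m).card ≤ W.cnt m T := fun m => by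
    rw [← Set.ncard_coe_finset]
    refine Set.ncard_le_ncard ?_ (W.fin_sep m T)
    intro x hx
    simp only [Finset.coe_filter, Set.mem_ofPred_eq] at hx
    exact ⟨ht hx.1, hx.2⟩
  rw [← htC, Finset.card_eq_sum_card_fiberwise (f := W.w) (t := Finset.range (r + 1))]
  · exact Finset.sum_le_sum fun m _ => h m
  · intro x hx
    have : W.w x ≤ t.sup W.w := Finset.le_sup hx
    simp only [Finset.coe_range, Set.mem_Iio]
    omega

theorem exists_dominates (C : ℕ) : ∃ m₀, ∀ m, m₀ ≤ m → C + 4 * siz (m - 1) ≤ siz m / m := by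
  refine ⟨C + 5, fun m hm => ?_⟩
  obtain ⟨k, rfl⟩ : ∃ k, m = k + 1 := ⟨m - 1, by omega⟩
  rw [Nat.le_div_iff_mul_le (by omega), siz_succ, Nat.add_sub_cancel]
  have e1 : ∀ j, 2 * (j + 4) ≤ 2 ^ (j + 4) := by
    intro j
    induction j with
    | zero => norm_num
    | succ j ih => rw [show j + 1 + 4 = (j + 4) + 1 by omega, pow_succ]; omega
  have h1 : 2 * k ≤ 2 ^ k := by
    obtain ⟨j, rfl⟩ : ∃ j, k = j + 4 := ⟨k - 4, by omega⟩
    exact e1 j
  have hk : k + 1 ≤ 2 ^ k := Nat.lt_two_pow_self
  have h2 : (k + 1) * (k + 1) ≤ siz k := by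
    calc (k + 1) * (k + 1) ≤ 2 ^ k * 2 ^ k := Nat.mul_le_mul hk hk
      _ = 2 ^ (2 * k) := by rw [← pow_add]; congr 1; omega
      _ ≤ siz k := Nat.pow_le_pow_right (by omega) h1
  have h3 : C + 4 * siz k ≤ (k + 1) * siz k := by
    have := siz_pos k
    have : (C + 4) * siz k ≤ (k + 1) * siz k := Nat.mul_le_mul_right _ (by omega)
    nlinarith
  calc (C + 4 * siz k) * (k + 1) ≤ ((k + 1) * siz k) * (k + 1) := Nat.mul_le_mul_right _ h3
    _ = ((k + 1) * (k + 1)) * siz k := by ring
    _ ≤ siz k * siz k := Nat.mul_le_mul_right _ h2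

/-- Inside a set that is not small there is a small set that outweighs a given small set. -/
theorem exists_outweigh {J d : Set P} (hJ : W.Small J) (hd : ¬ W.Small d) :
    ∃ E ⊆ d, W.Small E ∧ ∀ C : ℕ, ∃ r₀, ∀ r, r₀ ≤ r → W.phi r J + C ≤ W.phi r E := by
  classical
  obtain ⟨n, hn⟩ : ∃ n, ∀ M, ∃ m, M ≤ m ∧ siz m < (n + 1) * W.cnt m d := by
    by_contra hc
    refine hd fun n => ?_
    by_contra hc'
    exact hc ⟨n, fun M => by
      by_contra hM
      exact hc' ⟨M, fun m hm => by
        by_contra h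
        exact hM ⟨m, hm, Nat.lt_of_not_le h⟩⟩⟩
  choose B hrB hB using fun r => hJ.exists_bound (W := W) r
  choose s hs hsd using fun r => hn (B r)
  let c : ℕ → ℕ := fun m =>
    if h : ∃ r, s r = m then min (W.cnt m d) (2 * (siz m / (Nat.find h + 1))) else 0
  have hc : ∀ m, c m ≤ {x ∈ d | W.w x = m}.ncard := by
    intro m
    simp only [c]
    split
    · exact min_le_left _ _
    · exact Nat.zero_le _
  choose E hEsub hEcard using fun m => Set.exists_subset_card_eq (hc m)
  set U := ⋃ m, E m with hU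
  have hcnt : ∀ m, W.cnt m U = c m := by
    intro m
    rw [Win.cnt, ← hEcard m]
    congr 1
    ext x
    simp only [hU, Set.mem_iUnion, Set.mem_ofPred_eq]
    constructor
    · rintro ⟨⟨j, hj⟩, hx⟩
      have := (hEsub j hj).2
      rw [hx] at this
      exact this ▸ hj
    · exact fun hx => ⟨⟨m, hx⟩, (hEsub m hx).2⟩
  have hEs : W.Small U := by
    intro k
    refine ⟨(Finset.range (2 * (k + 1))).sup s + 1, fun m hm => ?_⟩
    rw [hcnt]
    simp only [c]
    split
    · rename_i h
      have hq : 2 * (k + 1) ≤ Nat.find h := by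
        by_contra hlt
        have h1 := Finset.le_sup (f := s)
          (Finset.mem_range.2 (Nat.lt_of_not_le hlt))
        rw [Nat.find_spec h] at h1
        omega
      have h2 := Nat.div_mul_le_self (siz m) (Nat.find h + 1)
      calc (k + 1) * min (W.cnt m d) (2 * (siz m / (Nat.find h + 1)))
          ≤ (k + 1) * (2 * (siz m / (Nat.find h + 1))) :=
            Nat.mul_le_mul_left _ (min_le_right _ _)
        _ = (siz m / (Nat.find h + 1)) * (2 * (k + 1)) := by ring
        _ ≤ (siz m / (Nat.find h + 1)) * (Nat.find h + 1) :=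
            Nat.mul_le_mul_left _ (by omega)
        _ ≤ siz m := h2
    · simp
  refine ⟨U, Set.iUnion_subset fun m x hx => (hEsub m hx).1, hEs, fun C => ?_⟩
  obtain ⟨m₀, hm₀⟩ := exists_dominates C
  refine ⟨m₀ + 2 * (n + 1), fun r hr => ?_⟩
  set m := s r with hm
  have hrm : r < m := lt_of_lt_of_le (hrB r) (hs r)
  have hex : ∃ q, s q = m := ⟨r, rfl⟩
  have hq : Nat.find hex ≤ r := Nat.find_min' hex rfl
  have hdom := hm₀ m (by omega)
  have hJle : W.phi r J ≤ 4 * siz (m - 1) := by
    rw [W.phi_eq (hB r)]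
    calc ∑ i ∈ Finset.range (B r), W.term r i J
        ≤ ∑ i ∈ Finset.range (B r), 2 * siz i := Finset.sum_le_sum fun i _ => by
          have := W.cnt_le i J
          unfold Win.term
          split
          · exact this
          · exact (Nat.sub_le _ _).trans this
      _ = 2 * ∑ i ∈ Finset.range (B r), siz i := (Finset.mul_sum _ _ _).symm
      _ ≤ 2 * ∑ i ∈ Finset.range (m - 1 + 1), siz i :=
          Nat.mul_le_mul_left _ (Finset.sum_le_sum_of_subset (Finset.range_subset_range.2
            (by have := hs r; omega)))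
      _ ≤ 4 * siz (m - 1) := by have := sum_siz_le (m - 1); omega
  have hterm : siz m / (r + 1) ≤ W.term r m U := by
    rw [Win.term, if_neg (by omega), hcnt]
    simp only [c, dif_pos hex]
    have h1 : siz m / (r + 1) ≤ siz m / (Nat.find hex + 1) :=
      Nat.div_le_div_left (by omega) (by omega)
    have h2 : 2 * (siz m / (r + 1)) ≤ W.cnt m d := by
      have h3 := Nat.div_mul_le_self (siz m) (r + 1)
      have h4 : 2 * (n + 1) * (siz m / (r + 1)) ≤ siz m := by
        refine le_trans ?_ h3
        rw [mul_comm (siz m / (r + 1))]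
        exact Nat.mul_le_mul_right _ (by omega)
      have h5 : siz m < (n + 1) * W.cnt m d := hsd r
      have h6 : (n + 1) * (2 * (siz m / (r + 1))) ≤ (n + 1) * W.cnt m d := by nlinarith
      exact Nat.le_of_mul_le_mul_left h6 (Nat.succ_pos n)
    omega
  have h7 : siz m / m ≤ siz m / (r + 1) := Nat.div_le_div_left (by omega) (by omega)
  have h8 := hEs.term_le_phi r m
  omega

end Vale.Agent.P068.Z
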