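import Vale.Agent.P068.Z.Window

/-!
Every family of fewer than continuum many sets that are not small is split by one cube set.
-/

namespace Vale.Agent.P068.Z

open Set Cardinal

/-- The points of the window `m`: functions on the nodes of level `m`. -/
abbrev Cube (m : ℕ) : Type := (Fin m → Bool) → Bool

theorem card_cube (m : ℕ) : Nat.card (Cube m) = siz m := by
  simp [siz]

instance infinite_sigma_cube : Infinite (Σ m, Cube m) :=
  Infinite.of_injective (fun m => (⟨m, fun _ => false⟩ : Σ m, Cube m))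
    (fun _ _ h => congrArg Sigma.fst h)

/-- An enumeration of all points of all windows. -/
noncomputable def pts : ℕ ≃ Σ m, Cube m := nonempty_equiv_of_countable.some

theorem pts_fiber_finite (m : ℕ) : {k | (pts k).1 = m}.Finite := by
  refine (Set.finite_range (fun v : Cube m => pts.symm ⟨m, v⟩)).subset ?_
  intro k hk
  rcases h : pts k with ⟨m', v⟩
  have hk' : m' = m := by rw [Set.mem_ofPred_eq, h] at hk; exact hk
  subst hk'
  exact ⟨v, by simp [← h]⟩

theorem pts_fiber_card (m : ℕ) : {k | (pts k).1 = m}.ncard ≤ siz m := by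
  have hsub : {k | (pts k).1 = m} ⊆ Set.range (fun v : Cube m => pts.symm ⟨m, v⟩) := by
    intro k hk
    rcases h : pts k with ⟨m', v⟩
    have hk' : m' = m := by rw [Set.mem_ofPred_eq, h] at hk; exact hk
    subst hk'
    exact ⟨v, by simp [← h]⟩
  refine (Set.ncard_le_ncard hsub (Set.finite_range _)).trans ?_
  rw [← Set.image_univ, ← card_cube m, ← Set.ncard_univ]
  exact Set.ncard_image_le Set.finite_univ

/-- The windows of the natural numbers. -/
noncomputable def natWin : Win ℕ where
  w k := (pts k).1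
  fin := pts_fiber_finite
  size m := (pts_fiber_card m).trans (by omega)

/-- The cube set of a branch `x`, with value `b`. -/
def cube (x : ℕ → Bool) (b : Bool) : Set ℕ := {k | (pts k).2 (fun i => x i) = b}

theorem mem_cube {k m : ℕ} {v : Cube m} (h : pts k = ⟨m, v⟩) (x : ℕ → Bool) (b : Bool) :
    k ∈ cube x b ↔ v (fun i => x i) = b := by
  have : ∀ z : Σ m, Cube m, z = ⟨m, v⟩ →
      (z.2 (fun i => x i) = b ↔ v (fun i => x i) = b) := by
    rintro z rfl
    exact Iff.rfl
  exact this _ h

/-- The cube functions with prescribed values on `K` distinct nodes are few. -/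
theorem card_fixed {m K : ℕ} (p : Fin K → (Fin m → Bool)) (hp : Function.Injective p)
    (b : Bool) : 2 ^ K * {v : Cube m | ∀ i, v (p i) = b}.ncard ≤ siz m := by
  classical
  rw [← card_cube m, ← Nat.card_coe_set_eq]
  have h2 : Nat.card (Fin K → Bool) = 2 ^ K := by simp
  rw [← h2, ← Nat.card_prod]
  let g : (Fin K → Bool) × ↥{v : Cube m | ∀ i, v (p i) = b} → Cube m := fun z s =>
    if h : ∃ i, p i = s then z.1 h.choose else z.2.1 s
  refine Nat.card_le_card_of_injective g ?_
  rintro ⟨f, v, hv⟩ ⟨f', v', hv'⟩ h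
  have hf : f = f' := by
    funext i
    have := congrFun h (p i)
    have he : ∃ j, p j = p i := ⟨i, rfl⟩
    simp only [g, dif_pos he] at this
    have hc : he.choose = i := hp he.choose_spec
    rwa [hc] at this
  have hvv : v = v' := by
    funext s
    by_cases he : ∃ i, p i = s
    · obtain ⟨i, rfl⟩ := he
      rw [hv i, hv' i]
    · have := congrFun h s
      simpa only [g, dif_neg he] using this
  subst hf hvv
  rfl

/-- Only finitely many cube sets almost contain or avoid a set that is not small. -/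
theorem bad_finite {a : Set ℕ} (ha : ¬ natWin.Small a) (b : Bool) :
    {x : ℕ → Bool | natWin.Small (a ∩ cube x b)}.Finite := by
  classical
  by_contra hinf
  refine ha fun n => ?_
  set K := n + 1 with hK
  let x : Fin K → (ℕ → Bool) := fun i => (Set.Infinite.natEmbedding _ hinf i.1).1
  have hx : Function.Injective x := fun i j h =>
    Fin.ext ((Set.Infinite.natEmbedding _ hinf).injective (Subtype.ext h))
  have hsmall : ∀ i, natWin.Small (a ∩ cube (x i) b) := fun i =>
    (Set.Infinite.natEmbedding _ hinf i.1).2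
  choose M hM using fun i => hsmall i (2 * K * (n + 1))
  have hsep : ∀ q : Fin K × Fin K, ∃ N, q.1 ≠ q.2 → ∀ m, N ≤ m →
      (fun l : Fin m => x q.1 l) ≠ fun l : Fin m => x q.2 l := by
    intro q
    by_cases h : q.1 = q.2
    · exact ⟨0, fun h' => absurd h h'⟩
    · obtain ⟨l, hl⟩ := Function.ne_iff.1 (hx.ne h)
      refine ⟨l + 1, fun _ m hm he => hl ?_⟩
      exact congrFun he ⟨l, by omega⟩
  choose N hN using hsep
  refine ⟨Finset.univ.sup M + Finset.univ.sup N, fun m hm => ?_⟩
  have hMi : ∀ i, M i ≤ m := fun i =>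
    le_trans (Finset.le_sup (Finset.mem_univ i)) (by omega)
  have hNi : ∀ q, N q ≤ m := fun q =>
    le_trans (Finset.le_sup (Finset.mem_univ q)) (by omega)
  let p : Fin K → (Fin m → Bool) := fun i l => x i l
  have hp : Function.Injective p := fun i j h => by
    by_contra hij
    exact hN (i, j) hij m (hNi _) h
  set rest : Set (Cube m) := {v | ∀ i, v (p i) = !b} with hrest
  have hcov : {k ∈ a | natWin.w k = m} ⊆
      (⋃ i, {k ∈ a ∩ cube (x i) b | natWin.w k = m}) ∪
        (fun v => pts.symm ⟨m, v⟩) '' rest := by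
    rintro k ⟨hka, hkm⟩
    by_cases he : ∃ i, k ∈ cube (x i) b
    · obtain ⟨i, hi⟩ := he
      exact Or.inl (Set.mem_iUnion.2 ⟨i, ⟨hka, hi⟩, hkm⟩)
    · refine Or.inr ?_
      push Not at he
      rcases h : pts k with ⟨m', v⟩
      have hm' : m' = m := by
        have : (pts k).1 = m := hkm
        rwa [h] at this
      subst hm'
      refine ⟨v, fun i => ?_, by simp [← h]⟩
      have h' := he i
      rw [mem_cube h] at h'
      change v (fun l => x i l) = !b
      revert h'
      cases v (fun l : Fin _ => x i l) <;> cases b <;> simp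
  have hfin : ((⋃ i, {k ∈ a ∩ cube (x i) b | natWin.w k = m}) ∪
      (fun v => pts.symm ⟨m, v⟩) '' rest).Finite :=
    (Set.finite_iUnion fun i => natWin.fin_sep m _).union (rest.toFinite.image _)
  have h1 : natWin.cnt m a ≤ (∑ i, natWin.cnt m (a ∩ cube (x i) b)) + rest.ncard := by
    refine (Set.ncard_le_ncard hcov hfin).trans ((Set.ncard_union_le _ _).trans ?_)
    exact Nat.add_le_add (Set.ncard_iUnion_le_of_fintype _) (Set.ncard_image_le rest.toFinite)
  have h2 : (2 * K * (n + 1)) * (∑ i, natWin.cnt m (a ∩ cube (x i) b)) ≤ K * siz m := by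
    rw [Finset.mul_sum]
    refine (Finset.sum_le_sum (g := fun _ => siz m) fun i _ => ?_).trans (by simp)
    exact le_trans (Nat.mul_le_mul_right _ (by omega)) (hM i m (hMi i))
  have h3 : 2 ^ K * rest.ncard ≤ siz m := card_fixed p hp (!b)
  have h4 : 2 * (n + 1) ≤ 2 ^ K := by
    rw [hK, pow_succ, mul_comm]
    exact Nat.mul_le_mul_right 2 Nat.lt_two_pow_self
  generalize (∑ i, natWin.cnt m (a ∩ cube (x i) b)) = S at h1 h2
  generalize natWin.cnt m a = c at h1 ⊢
  have h2' : 2 * (n + 1) * S ≤ siz m := by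
    have h' : K * (2 * (n + 1) * S) ≤ K * siz m :=
      calc K * (2 * (n + 1) * S) = 2 * K * (n + 1) * S := by ring
        _ ≤ K * siz m := h2
    exact Nat.le_of_mul_le_mul_left h' (Nat.succ_pos n)
  have h3' : 2 * (n + 1) * rest.ncard ≤ siz m := le_trans (Nat.mul_le_mul_right _ h4) h3
  have h1' := Nat.mul_le_mul_left (n + 1) h1
  nlinarith

/-- Splitting: fewer than continuum many sets that are not small are split by one set. -/
theorem exists_split (F : Set (Set ℕ)) (hF : #F < Cardinal.continuum)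
    (hpos : ∀ a ∈ F, ¬ natWin.Small a) :
    ∃ X : Set ℕ, ∀ a ∈ F, ¬ natWin.Small (a ∩ X) ∧ ¬ natWin.Small (a \ X) := by
  classical
  let bad : ↥F → Set (ℕ → Bool) := fun a =>
    {x | natWin.Small (a.1 ∩ cube x true)} ∪ {x | natWin.Small (a.1 ∩ cube x false)}
  have hfin : ∀ a : ↥F, (bad a).Finite := fun a =>
    (bad_finite (hpos _ a.2) true).union (bad_finite (hpos _ a.2) false)
  have hlt : #(⋃ a, bad a : Set (ℕ → Bool)) < Cardinal.continuum := by
    refine ((Cardinal.mk_iUnion_le _).trans
      (mul_le_mul' le_rfl (ciSup_le' fun a => (hfin a).lt_aleph0.le))).trans_lt ?_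
    exact Cardinal.mul_lt_of_lt Cardinal.aleph0_le_continuum hF Cardinal.aleph0_lt_continuum
  have hne : (⋃ a, bad a : Set (ℕ → Bool)) ≠ Set.univ := by
    intro h
    rw [h, Cardinal.mk_univ] at hlt
    simp at hlt
  obtain ⟨x, hx⟩ := (Set.ne_univ_iff_exists_notMem _).1 hne
  refine ⟨cube x true, fun a ha => ⟨fun h => hx (Set.mem_iUnion.2 ⟨⟨a, ha⟩, Or.inl h⟩),
    fun h => hx (Set.mem_iUnion.2 ⟨⟨a, ha⟩, Or.inr ?_⟩)⟩⟩
  refine Win.Small.mono h ?_
  rintro k ⟨hka, hk⟩
  refine ⟨hka, ?_⟩
  simp only [cube, Set.mem_ofPred_eq] at hk ⊢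
  simp [hk]

end Vale.Agent.P068.Z
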