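import Vale.Agent.P068.Step
import Vale.Agent.P068.Z.Split

/-!
Inclusion modulo small sets on the natural numbers and on the two ports of a vertex.
-/

namespace Vale.Agent.P068.Z

open Set

/-- The windows of the two ports of a vertex. -/
noncomputable def portWin : Win Port where
  w z := natWin.w z.2
  fin m := ((Set.finite_univ (α := Bool)).prod (natWin.fin m)).subset fun z hz =>
    ⟨Set.mem_univ z.1, hz⟩
  size m := by
    refine (Set.ncard_le_ncard (t := (Set.univ : Set Bool) ×ˢ {k | (pts k).1 = m})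
      (fun z hz => ⟨Set.mem_univ z.1, hz⟩)
      ((Set.finite_univ).prod (pts_fiber_finite m))).trans ?_
    rw [Set.ncard_prod, Set.ncard_univ, Nat.card_eq_fintype_card, Fintype.card_bool]
    exact Nat.mul_le_mul_left 2 (pts_fiber_card m)

/-- A type with windows. -/
class Windowed (α : Type) where
  win : Win α

noncomputable instance windowedNat : Windowed ℕ := ⟨natWin⟩

noncomputable instance windowedPort : Windowed Port := ⟨portWin⟩

/-- Inclusion modulo small sets. -/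
def AE {α : Type} [Windowed α] (X Y : Set α) : Prop := (Windowed.win (α := α)).AZ X Y

variable {α : Type} [Windowed α]

theorem AE.refl (X : Set α) : AE X X := Win.AZ.refl X

theorem AE.of_subset {X Y : Set α} (h : X ⊆ Y) : AE X Y := Win.AZ.of_subset h

theorem AE.trans {X Y Z : Set α} (h₁ : AE X Y) (h₂ : AE Y Z) : AE X Z := Win.AZ.trans h₁ h₂

theorem AE.compl {X Y : Set α} (h : AE X Y) : AE Yᶜ Xᶜ := Win.AZ.compl h

theorem cnt_port (b : Bool) (m : ℕ) (Y : Set Port) :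
    natWin.cnt m {k | (b, k) ∈ Y} ≤ portWin.cnt m Y := by
  rw [Win.cnt, ← Set.ncard_image_of_injective _ (fun a c h => (Prod.ext_iff.1 h).2 :
    Function.Injective fun k : ℕ => (b, k))]
  refine Set.ncard_le_ncard ?_ (portWin.fin_sep m Y)
  rintro _ ⟨k, ⟨hk, hm⟩, rfl⟩
  exact ⟨hk, hm⟩

theorem small_part {Y : Set Port} (h : portWin.Small Y) (b : Bool) :
    natWin.Small {k | (b, k) ∈ Y} := fun n => by
  obtain ⟨M, hM⟩ := h n
  exact ⟨M, fun m hm => le_trans (Nat.mul_le_mul_left _ (cnt_port b m Y)) (hM m hm)⟩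

theorem small_lift {S : Set ℕ} (h : natWin.Small S) (b : Bool) :
    portWin.Small ((fun k => (b, k)) '' S) := fun n => by
  obtain ⟨M, hM⟩ := h n
  refine ⟨M, fun m hm => le_trans (Nat.mul_le_mul_left _ ?_) (hM m hm)⟩
  rw [Win.cnt, Win.cnt]
  refine le_trans (Set.ncard_le_ncard (t := (fun k => (b, k)) '' {x ∈ S | natWin.w x = m}) ?_
    ((natWin.fin_sep m S).image _)) (Set.ncard_image_le (natWin.fin_sep m S))
  rintro _ ⟨⟨k, hk, rfl⟩, hm'⟩
  exact ⟨k, ⟨hk, hm'⟩, rfl⟩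

theorem ae_inn {X Y : Set Port} (h : AE X Y) : AE (inn X) (inn Y) := small_part h false

theorem ae_out {X Y : Set Port} (h : AE X Y) : AE (out X) (out Y) := small_part h true

theorem ae_port {X Y : Set Port} (h₁ : AE (inn X) (inn Y)) (h₂ : AE (out X) (out Y)) :
    AE X Y := by
  refine Win.Small.mono (Win.Small.union (small_lift h₁ false) (small_lift h₂ true)) ?_
  rintro ⟨b, k⟩ hk
  cases b
  · exact Or.inl ⟨k, ⟨hk.1, hk.2⟩, rfl⟩
  · exact Or.inr ⟨k, ⟨hk.1, hk.2⟩, rfl⟩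

theorem not_small_univ : ¬ natWin.Small (Set.univ : Set ℕ) := by
  intro h
  obtain ⟨M, hM⟩ := h 1
  have h1 : siz M ≤ natWin.cnt M (Set.univ : Set ℕ) := by
    rw [← card_cube M, ← Set.ncard_univ, Win.cnt, ← Set.ncard_image_of_injective
      (Set.univ : Set (Cube M)) (f := fun v => pts.symm ⟨M, v⟩) (fun a b hab => by simpa using hab)]
    refine Set.ncard_le_ncard ?_ (natWin.fin_sep M _)
    rintro _ ⟨v, -, rfl⟩
    exact ⟨trivial, by simp [natWin]⟩
  have h2 := hM M le_rfl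
  have := siz_pos M
  omega

/-- Interpolation avoiding fewer than continuum many sets. -/
theorem exists_between {p q : Set ℕ} (hpq : AE p q)
    (F : Set (Set ℕ)) (hF : Cardinal.mk F < Cardinal.continuum) :
    ∃ R, AE p R ∧ AE R q ∧ (∀ w ∈ F, AE w R → AE w p) ∧ (∀ w ∈ F, AE R w → AE q w) := by
  set d := q \ p with hd
  set F' := {A ∈ ((fun w => d ∩ w) '' F) ∪ ((fun w => d \ w) '' F) | ¬ natWin.Small A} with hF'
  have hc : Cardinal.mk F' < Cardinal.continuum := by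
    refine ((Cardinal.mk_le_mk_of_subset (Set.sep_subset _ _)).trans
      (Cardinal.mk_union_le _ _)).trans_lt ?_
    exact Cardinal.add_lt_of_lt Cardinal.aleph0_le_continuum
      (Cardinal.mk_image_le.trans_lt hF) (Cardinal.mk_image_le.trans_lt hF)
  obtain ⟨X, hX⟩ := exists_split F' hc fun A hA => hA.2
  refine ⟨(p ∩ q) ∪ (X ∩ d), ?_, AE.of_subset ?_, fun w hw hwR => ?_, fun w hw hRw => ?_⟩
  · refine Win.Small.mono hpq ?_
    rintro x ⟨hx, hxn⟩
    exact ⟨hx, fun hq => hxn (Or.inl ⟨hx, hq⟩)⟩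
  · rintro x (⟨-, hx⟩ | ⟨-, hx, -⟩) <;> exact hx
  · by_contra hcon
    have hinf : ¬ natWin.Small (d ∩ w) := by
      intro hfin
      refine hcon ((Win.Small.union hfin hwR).mono ?_)
      rintro x ⟨hxw, hxp⟩
      by_cases hxR : x ∈ (p ∩ q) ∪ (X ∩ d)
      · rcases hxR with ⟨h, -⟩ | ⟨-, h⟩
        · exact absurd h hxp
        · exact Or.inl ⟨h, hxw⟩
      · exact Or.inr ⟨hxw, hxR⟩
    refine (hX _ ⟨Or.inl ⟨w, hw, rfl⟩, hinf⟩).2 (Win.Small.mono hwR ?_)
    rintro x ⟨⟨hxd, hxw⟩, hxX⟩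
    refine ⟨hxw, ?_⟩
    rintro (⟨h, -⟩ | ⟨h, -⟩)
    · exact hxd.2 h
    · exact hxX h
  · by_contra hcon
    have hinf : ¬ natWin.Small (d \ w) := by
      intro hfin
      refine hcon ((Win.Small.union hfin hRw).mono ?_)
      rintro x ⟨hxq, hxw⟩
      by_cases hxp : x ∈ p
      · exact Or.inr ⟨Or.inl ⟨hxp, hxq⟩, hxw⟩
      · exact Or.inl ⟨⟨hxq, hxp⟩, hxw⟩
    refine (hX _ ⟨Or.inr ⟨w, hw, rfl⟩, hinf⟩).1 (Win.Small.mono hRw ?_)
    rintro x ⟨⟨hxd, hxw⟩, hxX⟩
    exact ⟨Or.inr ⟨hxX, hxd⟩, hxw⟩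

end Vale.Agent.P068.Z
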