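import Vale.Agent.P068.Coloring

/-!
The ideal of sets that are eventually small in the windows of a partition into finite pieces.
-/

namespace Vale.Agent.P068.Z

open Set

/-- The size scale of the window `m`. -/
def siz (m : ℕ) : ℕ := 2 ^ 2 ^ m

theorem siz_succ (m : ℕ) : siz (m + 1) = siz m * siz m := by
  rw [siz, siz, ← pow_add, pow_succ, mul_two]

theorem siz_pos (m : ℕ) : 0 < siz m := Nat.pos_of_ne_zero (by simp [siz])

theorem two_le_siz (m : ℕ) : 2 ≤ siz m := by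
  unfold siz
  calc 2 = 2 ^ 1 := rfl
    _ ≤ 2 ^ 2 ^ m := Nat.pow_le_pow_right (by omega) Nat.one_le_two_pow

theorem le_siz (m : ℕ) : m ≤ siz m :=
  (Nat.lt_two_pow_self.le.trans (Nat.lt_two_pow_self.le))

theorem sum_siz_le (m : ℕ) : ∑ i ∈ Finset.range (m + 1), siz i ≤ 2 * siz m := by
  induction m with
  | zero => simp; omega
  | succ m ih =>
    rw [Finset.sum_range_succ]
    have h := Nat.mul_le_mul_right (siz m) (two_le_siz m)
    rw [siz_succ]
    omega

variable {P : Type}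

/-- A map to window numbers with finite fibres of controlled size. -/
structure Win (P : Type) where
  w : P → ℕ
  fin : ∀ m, {x | w x = m}.Finite
  size : ∀ m, {x | w x = m}.ncard ≤ 2 * siz m

variable (W : Win P)

/-- The number of points of `Y` in window `m`. -/
noncomputable def Win.cnt (m : ℕ) (Y : Set P) : ℕ := {x ∈ Y | W.w x = m}.ncard

theorem Win.fin_sep (m : ℕ) (Y : Set P) : {x ∈ Y | W.w x = m}.Finite :=
  (W.fin m).subset fun _ h => h.2

theorem Win.cnt_mono {X Y : Set P} (h : X ⊆ Y) (m : ℕ) : W.cnt m X ≤ W.cnt m Y :=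
  Set.ncard_le_ncard (fun _ hx => ⟨h hx.1, hx.2⟩) (W.fin_sep m Y)

theorem Win.cnt_le (m : ℕ) (Y : Set P) : W.cnt m Y ≤ 2 * siz m :=
  (Set.ncard_le_ncard (fun _ hx => hx.2) (W.fin m)).trans (W.size m)

theorem Win.cnt_union (m : ℕ) (X Y : Set P) : W.cnt m (X ∪ Y) ≤ W.cnt m X + W.cnt m Y := by
  refine le_trans (Set.ncard_le_ncard ?_ ((W.fin_sep m X).union (W.fin_sep m Y)))
    (Set.ncard_union_le _ _)
  rintro x ⟨hx | hx, hm⟩
  · exact Or.inl ⟨hx, hm⟩
  · exact Or.inr ⟨hx, hm⟩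

theorem Win.cnt_disjoint {X Y : Set P} (h : Disjoint X Y) (m : ℕ) :
    W.cnt m (X ∪ Y) = W.cnt m X + W.cnt m Y := by
  rw [Win.cnt, Win.cnt, Win.cnt, ← Set.ncard_union_eq
    (h.mono (fun _ hx => hx.1) (fun _ hx => hx.1)) (W.fin_sep m X) (W.fin_sep m Y)]
  congr 1
  ext x
  simp only [mem_ofPred_eq, mem_union]
  tauto

theorem Win.below_finite (B : ℕ) : {x | W.w x < B}.Finite := by
  refine ((Set.finite_Iio B).biUnion fun m _ => W.fin m).subset ?_
  intro x hx
  exact Set.mem_biUnion (show W.w x ∈ Set.Iio B from hx) rfl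

theorem Win.cnt_eventually_zero {Y : Set P} (hY : Y.Finite) :
    ∃ M, ∀ m, M ≤ m → W.cnt m Y = 0 := by
  obtain ⟨M, hM⟩ := (hY.image W.w).bddAbove
  refine ⟨M + 1, fun m hm => ?_⟩
  rw [Win.cnt, Set.ncard_eq_zero (W.fin_sep m Y)]
  ext x
  simp only [mem_ofPred_eq, mem_empty_iff_false, iff_false, not_and]
  intro hx he
  have := hM ⟨x, hx, rfl⟩
  omega

/-- Eventually negligible in every window. -/
def Win.Small (Y : Set P) : Prop := ∀ n : ℕ, ∃ M, ∀ m, M ≤ m → (n + 1) * W.cnt m Y ≤ siz m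

variable {W}

theorem Win.Small.mono {X Y : Set P} (h : W.Small Y) (hXY : X ⊆ Y) : W.Small X := fun n => by
  obtain ⟨M, hM⟩ := h n
  exact ⟨M, fun m hm => le_trans (Nat.mul_le_mul_left _ (W.cnt_mono hXY m)) (hM m hm)⟩

theorem Win.Small.union {X Y : Set P} (hX : W.Small X) (hY : W.Small Y) :
    W.Small (X ∪ Y) := fun n => by
  obtain ⟨M₁, h₁⟩ := hX (2 * n + 1)
  obtain ⟨M₂, h₂⟩ := hY (2 * n + 1)
  refine ⟨M₁ + M₂, fun m hm => ?_⟩
  have a := h₁ m (by omega)
  have b := h₂ m (by omega)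
  have c := Nat.mul_le_mul_left (n + 1) (W.cnt_union m X Y)
  nlinarith

theorem Win.small_of_finite {Y : Set P} (hY : Y.Finite) : W.Small Y := fun n => by
  obtain ⟨M, hM⟩ := W.cnt_eventually_zero hY
  exact ⟨M, fun m hm => by simp [hM m hm]⟩

variable (W)

/-- Inclusion up to a small set. -/
def Win.AZ (X Y : Set P) : Prop := W.Small (X \ Y)

variable {W}

theorem Win.AZ.refl (X : Set P) : W.AZ X X := Win.small_of_finite (by simp)

theorem Win.AZ.of_ae {X Y : Set P} (h : AE X Y) : W.AZ X Y := Win.small_of_finite h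

theorem Win.AZ.of_subset {X Y : Set P} (h : X ⊆ Y) : W.AZ X Y :=
  Win.AZ.of_ae (AE.of_subset h)

theorem Win.AZ.trans {X Y Z : Set P} (h₁ : W.AZ X Y) (h₂ : W.AZ Y Z) : W.AZ X Z := by
  refine (Win.Small.union h₁ h₂).mono ?_
  intro x hx
  by_cases h : x ∈ Y
  · exact Or.inr ⟨h, hx.2⟩
  · exact Or.inl ⟨hx.1, h⟩

theorem Win.AZ.compl {X Y : Set P} (h : W.AZ X Y) : W.AZ Yᶜ Xᶜ :=
  Win.Small.mono h fun _ hx => ⟨by_contra fun hh => hx.2 hh, hx.1⟩

end Vale.Agent.P068.Z
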